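import Vale.Agent.P181.FL.H264.CapB

set_option autoImplicit false

/-!
# P181, FL: the row [CAP]

`cap : CapStmt`: a highest weight vector with vanishing column antisymmetrisations is zero.
-/

open scoped BigOperators

namespace Vale.Agent.P181.FL.H264

open Finset Vale.Agent.P181.FL

section

variable {n : ℕ} {P Q : Type} [Fintype P] [DecidableEq P] [Fintype Q] [DecidableEq Q]
  {lam : Fin n → ℕ}

/-- The word `v` on `Q` completed by a permutation of the nonzero rows. -/
def glue (ε : P ≃ Row lam ⊕ Q) (s : Equiv.Perm (Row lam)) (v : Q → Fin n) : P → Fin n :=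
  fun p => Sum.elim (fun r => (s r).1) v (ε p)

/-- The antisymmetrisation over the first column. -/
noncomputable def red (ε : P ≃ Row lam ⊕ Q) (f : (P → Fin n) → ℂ) : (Q → Fin n) → ℂ :=
  fun v => ∑ s : Equiv.Perm (Row lam), ((Equiv.Perm.sign s : ℤ) : ℂ) * f (glue ε s v)

/-- The shape without its first column. -/
abbrev dn (lam : Fin n → ℕ) : Fin n → ℕ := fun i => lam i - 1

omit [Fintype P] [DecidableEq P] [Fintype Q] in
theorem upd_inr (ε : P ≃ Row lam ⊕ Q) (s : Equiv.Perm (Row lam)) (v : Q → Fin n) (q : Q)
    (k : Fin n) [DecidableEq P] :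
    Function.update (glue ε s v) (ε.symm (Sum.inr q)) k = glue ε s (Function.update v q k) := by
  funext p
  obtain ⟨x, rfl⟩ := ε.symm.surjective p
  by_cases hx : x = Sum.inr q
  · subst hx
    simp [glue]
  · rw [Function.update_of_ne (fun h => hx (ε.symm.injective h))]
    simp only [glue, Equiv.apply_symm_apply]
    rcases x with r | q'
    · rfl
    · simp only [Sum.elim_inr]
      rw [Function.update_of_ne (fun h => hx (by rw [h]))]

theorem red_HWW (hlam : Antitone lam) (ε : P ≃ Row lam ⊕ Q) {f : (P → Fin n) → ℂ}
    (hf : HWW lam f) : HWW (dn lam) (red ε f) := by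
  classical
  refine ⟨fun v hv i => ?_, fun i k hik v => ?_⟩
  · obtain ⟨s, -, hs⟩ := Finset.exists_ne_zero_of_sum_ne_zero hv
    have h := hf.wt _ (right_ne_zero_of_mul hs) i
    rw [Finset.card_filter] at h
    have h2 : (∑ p, if glue ε s v p = i then 1 else 0) =
        ∑ x : Row lam ⊕ Q, if Sum.elim (fun r => (s r).1) v x = i then 1 else 0 :=
      Equiv.sum_comp ε (fun x => if Sum.elim (fun r => (s r).1) v x = i then 1 else 0)
    rw [h2, Fintype.sum_sum_type] at h
    replace h : (∑ r : Row lam, if (s r).1 = i then 1 else 0) + (∑ q, if v q = i then 1 else 0) =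
      lam i := h
    have h3 : (∑ r : Row lam, if (s r).1 = i then 1 else 0) =
        ∑ r : Row lam, if r.1 = i then 1 else 0 :=
      Equiv.sum_comp s (fun r : Row lam => if r.1 = i then 1 else 0)
    rw [h3, ← Finset.card_filter (fun q => v q = i)] at h
    show #{q | v q = i} = lam i - 1
    by_cases hi : 0 < lam i
    · have h4 : (∑ r : Row lam, if r.1 = i then 1 else 0) = 1 := by
        rw [Finset.sum_eq_single (⟨i, hi⟩ : Row lam)]
        · simp
        · intro r _ hr
          rw [if_neg (fun h => hr (Subtype.ext h))]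
        · intro h
          exact absurd (Finset.mem_univ _) h
      omega
    · have h4 : (∑ r : Row lam, if r.1 = i then 1 else 0) = 0 := by
        apply Finset.sum_eq_zero
        intro r _
        rw [if_neg]
        intro h
        exact hi (h ▸ r.2)
      omega
  · have hs : ∀ s : Equiv.Perm (Row lam),
        (∑ q, if v q = i then f (glue ε s (Function.update v q k)) else 0) =
        - ∑ r : Row lam, if (s r).1 = i then
          f (Function.update (glue ε s v) (ε.symm (Sum.inl r)) k) else 0 := by
      intro s
      have h := hf.hw i k hik (glue ε s v)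
      rw [← Equiv.sum_comp ε.symm, Fintype.sum_sum_type] at h
      simp only [upd_inr] at h
      simp only [glue, Equiv.apply_symm_apply, Sum.elim_inl, Sum.elim_inr] at h ⊢
      linear_combination h
    have h1 : (∑ q, if v q = i then red ε f (Function.update v q k) else 0) =
        ∑ s : Equiv.Perm (Row lam), ((Equiv.Perm.sign s : ℤ) : ℂ) *
          ∑ q, if v q = i then f (glue ε s (Function.update v q k)) else 0 := by
      simp only [Finset.mul_sum]
      rw [Finset.sum_comm]
      refine Finset.sum_congr rfl (fun q _ => ?_)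
      by_cases hq : v q = i
      · simp only [if_pos hq]
        rfl
      · simp only [if_neg hq, mul_zero, Finset.sum_const_zero]
    rw [h1]
    simp only [hs]
    by_cases hk : 0 < lam k
    · have hi : 0 < lam i := lt_of_lt_of_le hk (hlam hik.le)
      set i' : Row lam := ⟨i, hi⟩ with hi'
      set k' : Row lam := ⟨k, hk⟩ with hk'
      have hne : i' ≠ k' := fun h => hik.ne (congrArg Subtype.val h)
      let c : Row lam → Fin n := fun x => if x = i' then k else x.1
      have hc : ∀ x, c (Equiv.swap i' k' x) = c x := by
        intro x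
        simp only [c]
        by_cases h1 : x = i'
        · rw [h1, Equiv.swap_apply_left, if_pos rfl, if_neg hne.symm]
        · by_cases h2 : x = k'
          · rw [h2, Equiv.swap_apply_right, if_pos rfl, if_neg hne.symm]
          · rw [Equiv.swap_apply_of_ne_of_ne h1 h2]
      let W : Equiv.Perm (Row lam) → (P → Fin n) := fun s p =>
        Sum.elim (fun r => c (s r)) v (ε p)
      have hA : ∀ s : Equiv.Perm (Row lam), (∑ r : Row lam, if (s r).1 = i then
          f (Function.update (glue ε s v) (ε.symm (Sum.inl r)) k) else 0) = f (W s) := by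
        intro s
        rw [Finset.sum_eq_single (s⁻¹ i')]
        · have h2 : (s (s⁻¹ i')).1 = i := by simp [hi']
          rw [if_pos h2]
          congr 1
          funext p
          obtain ⟨x, rfl⟩ := ε.symm.surjective p
          by_cases hx : x = Sum.inl (s⁻¹ i')
          · subst hx
            simp [W, c]
          · rw [Function.update_of_ne (fun h => hx (ε.symm.injective h))]
            simp only [glue, W, Equiv.apply_symm_apply]
            rcases x with r | q'
            · simp only [Sum.elim_inl, c]
              rw [if_neg]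
              intro h
              apply hx
              rw [← h]
              simp
            · rfl
        · intro r _ hr
          rw [if_neg]
          intro h
          apply hr
          have : s r = i' := Subtype.ext h
          rw [← this]
          simp
        · intro h
          exact absurd (Finset.mem_univ _) h
      simp only [hA]
      have hW : ∀ s, W (Equiv.swap i' k' * s) = W s := by
        intro s
        funext p
        simp only [W]
        rcases ε p with r | q
        · exact hc (s r)
        · rfl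
      have hS : ∑ s : Equiv.Perm (Row lam), ((Equiv.Perm.sign s : ℤ) : ℂ) * -f (W s) =
          - ∑ s : Equiv.Perm (Row lam), ((Equiv.Perm.sign s : ℤ) : ℂ) * -f (W s) := by
        conv_lhs => rw [← Equiv.sum_comp (Equiv.mulLeft (Equiv.swap i' k'))]
        rw [← Finset.sum_neg_distrib]
        refine Finset.sum_congr rfl (fun s _ => ?_)
        rw [Equiv.coe_mulLeft, hW, Equiv.Perm.sign_mul, Equiv.Perm.sign_swap hne]
        simp
      have h2 : (2 : ℂ) * ∑ s : Equiv.Perm (Row lam),
          ((Equiv.Perm.sign s : ℤ) : ℂ) * -f (W s) = 0 := by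
        linear_combination hS
      rcases mul_eq_zero.mp h2 with h | h
      · norm_num at h
      · exact h
    · apply Finset.sum_eq_zero
      intro s _
      have h2 : (∑ r : Row lam, if (s r).1 = i then
          f (Function.update (glue ε s v) (ε.symm (Sum.inl r)) k) else 0) = 0 := by
        apply Finset.sum_eq_zero
        intro r _
        split_ifs with h
        · by_contra hne
          have h3 := hf.wt _ hne k
          have h4 : ε.symm (Sum.inl r) ∈ (Finset.univ.filter (fun p =>
              Function.update (glue ε s v) (ε.symm (Sum.inl r)) k p = k)) := by simp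
          have h5 := Finset.card_pos.mpr ⟨_, h4⟩
          omega
        · rfl
      rw [h2]
      simp

theorem cell_ext {lam : Fin n → ℕ} {x y : Cell lam} (h1 : x.1 = y.1)
    (h2 : (x.2 : ℕ) = (y.2 : ℕ)) : x = y := by
  rcases x with ⟨i, c⟩
  rcases y with ⟨j, d⟩
  simp only at h1
  subst h1
  simp only at h2
  rw [Fin.ext h2]

/-- First column and the rest. -/
def thF (lam : Fin n → ℕ) : Row lam ⊕ Cell (dn lam) → Cell lam :=
  Sum.elim (fun r => ⟨r.1, ⟨0, r.2⟩⟩)
    (fun c => ⟨c.1, ⟨(c.2 : ℕ) + 1, by
      have h1 : (c.2 : ℕ) < lam c.1 - 1 := c.2.2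
      omega⟩⟩)

theorem thF_bij (lam : Fin n → ℕ) : Function.Bijective (thF lam) := by
  constructor
  · rintro (r | c) (r' | c') h
    · have h1 : r.1 = r'.1 := congrArg Sigma.fst h
      rw [Subtype.ext h1]
    · have h2 : ((thF lam (Sum.inl r)).2 : ℕ) = ((thF lam (Sum.inr c')).2 : ℕ) := by rw [h]
      simp [thF] at h2
    · have h2 : ((thF lam (Sum.inr c)).2 : ℕ) = ((thF lam (Sum.inl r')).2 : ℕ) := by rw [h]
      simp [thF] at h2
    · have h1 : (thF lam (Sum.inr c)).1 = (thF lam (Sum.inr c')).1 := by rw [h]
      replace h1 : c.1 = c'.1 := h1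
      have h2 : ((thF lam (Sum.inr c)).2 : ℕ) = ((thF lam (Sum.inr c')).2 : ℕ) := by rw [h]
      simp only [thF, Sum.elim_inr] at h2
      rw [cell_ext h1 (by omega)]
  · rintro ⟨i, c⟩
    by_cases h : (c : ℕ) = 0
    · refine ⟨Sum.inl ⟨i, by have := c.2; omega⟩, ?_⟩
      apply cell_ext
      · rfl
      · exact h.symm
    · refine ⟨Sum.inr ⟨i, ⟨(c : ℕ) - 1, by have := c.2; show (c : ℕ) - 1 < lam i - 1; omega⟩⟩, ?_⟩
      apply cell_ext
      · rfl
      · show (c : ℕ) - 1 + 1 = c
        omega

/-- First column and the rest. -/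
noncomputable def th (lam : Fin n → ℕ) : Row lam ⊕ Cell (dn lam) ≃ Cell lam :=
  Equiv.ofBijective (thF lam) (thF_bij lam)

theorem red_ColZ (ε : P ≃ Row lam ⊕ Q) {f : (P → Fin n) → ℂ}
    (hf : ColZ lam f) : ColZ (dn lam) (red ε f) := by
  classical
  intro l'
  have h := hf (ε.trans ((Equiv.sumCongr (Equiv.refl _) l').trans (th lam)))
  rw [← Equiv.sum_comp (th lam).permCongr] at h
  have hcol : ∀ g : Equiv.Perm (Row lam ⊕ Cell (dn lam)),
      (∀ c, (((th lam).permCongr g c).2 : ℕ) = (c.2 : ℕ)) ↔
        ∀ x, ((thF lam (g x)).2 : ℕ) = ((thF lam x).2 : ℕ) := by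
    intro g
    constructor
    · intro hc x
      have := hc (th lam x)
      rw [Equiv.permCongr_apply, Equiv.symm_apply_apply] at this
      exact this
    · intro hc c
      have := hc ((th lam).symm c)
      rw [Equiv.permCongr_apply]
      have h2 : thF lam ((th lam).symm c) = c := (th lam).apply_symm_apply c
      rw [h2] at this
      exact this
  refine Eq.trans ?_ h
  rw [← Finset.sum_of_injOn (Equiv.Perm.sumCongrHom (Row lam) (Cell (dn lam)))
    (s := Finset.univ)
    (f := fun x : Equiv.Perm (Row lam) × Equiv.Perm (Cell (dn lam)) =>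
      if ∀ c, ((x.2 c).2 : ℕ) = (c.2 : ℕ) then
        ((Equiv.Perm.sign x.2 : ℤ) : ℂ) * (((Equiv.Perm.sign x.1 : ℤ) : ℂ) *
          f (glue ε x.1 (fun q => (x.2 (l' q)).1))) else 0)]
  · rw [← Finset.univ_product_univ, Finset.sum_product_right]
    refine Finset.sum_congr rfl (fun g _ => ?_)
    by_cases hg : ∀ c, ((g c).2 : ℕ) = (c.2 : ℕ)
    · simp only [if_pos hg]
      rw [← Finset.mul_sum]
      rfl
    · simp only [if_neg hg, Finset.sum_const_zero]
  · exact Equiv.Perm.sumCongrHom_injective.injOn
  · intro x _
    exact Finset.mem_coe.mpr (Finset.mem_univ _)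
  · intro g _ hg
    rw [if_neg]
    intro hc
    rw [hcol] at hc
    apply hg
    have hm : Set.MapsTo g (Set.range Sum.inl) (Set.range Sum.inl) := by
      rintro _ ⟨r, rfl⟩
      have h1 := hc (Sum.inl r)
      rcases hgr : g (Sum.inl r) with r' | c'
      · exact ⟨r', rfl⟩
      · rw [hgr] at h1
        simp [thF] at h1
    obtain ⟨x, hx⟩ := Equiv.Perm.mem_sumCongrHom_range_of_perm_mapsTo_inl hm
    exact ⟨x, Finset.mem_coe.mpr (Finset.mem_univ _), hx⟩
  · rintro ⟨s, g⟩ _
    have h1 : (∀ c, (((th lam).permCongr (Equiv.Perm.sumCongrHom (Row lam) (Cell (dn lam))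
        (s, g)) c).2 : ℕ) = (c.2 : ℕ)) ↔ ∀ c, ((g c).2 : ℕ) = (c.2 : ℕ) := by
      rw [hcol]
      constructor
      · intro hc c
        have := hc (Sum.inr c)
        replace this : ((g c).2 : ℕ) + 1 = (c.2 : ℕ) + 1 := this
        omega
      · rintro hc (r | c)
        · rfl
        · have := hc c
          show ((g c).2 : ℕ) + 1 = (c.2 : ℕ) + 1
          omega
    simp only [h1]
    split_ifs with hg
    · rw [Equiv.Perm.sign_permCongr]
      rw [Equiv.Perm.sumCongrHom_apply, Equiv.Perm.sign_sumCongr]
      push_cast
      have h2 : (fun p => ((th lam).permCongr (Equiv.Perm.sumCongr s g)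
          ((ε.trans ((Equiv.sumCongr (Equiv.refl _) l').trans (th lam))) p)).1) =
          glue ε s (fun q => (g (l' q)).1) := by
        funext p
        rw [Equiv.permCongr_apply]
        simp only [Equiv.trans_apply, Equiv.symm_apply_apply, glue]
        rcases ε p with r | q
        · rfl
        · rfl
      rw [h2]
      ring
    · rfl

end

theorem aux (M : ℕ) : ∀ (n : ℕ) (lam : Fin n → ℕ) (P : Type) [Fintype P] [DecidableEq P]
    (f : (P → Fin n) → ℂ), (∀ i, lam i ≤ M) → Antitone lam → HWW lam f → ColZ lam f →
    ∀ w, f w = 0 := by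
  classical
  induction M with
  | zero =>
    intro n lam P _ _ f hM hlam hf hC w
    by_contra hne
    have hwt := hf.wt w hne
    have hP : IsEmpty P := ⟨fun p => by
      have h1 := hwt (w p)
      have h2 := hM (w p)
      have h3 : p ∈ (Finset.univ.filter (fun q => w q = w p)) := by simp
      have h4 := Finset.card_pos.mpr ⟨_, h3⟩
      omega⟩
    have hE : IsEmpty (Cell lam) := ⟨fun c => by
      have h1 := c.2.2
      have h2 := hM c.1
      omega⟩
    have h := hC (Equiv.equivOfIsEmpty P (Cell lam))
    rw [Fintype.sum_eq_single 1 (fun g hg => absurd (Subsingleton.elim g 1) hg)] at h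
    rw [if_pos (fun c => isEmptyElim c)] at h
    simp only [Equiv.Perm.sign_one, Units.val_one, Int.cast_one, one_mul] at h
    apply hne
    rw [← h]
    congr 1
    funext p
    exact isEmptyElim p
  | succ M ih =>
    intro n lam P _ _ f hM hlam hf hC
    apply zero_of hf
    intro e he w
    let ε : P ≃ Row lam ⊕ ((Set.range e)ᶜ : Set P) :=
      (Equiv.Set.sumCompl (Set.range e)).symm.trans
        (Equiv.sumCongr (Equiv.ofInjective e he).symm (Equiv.refl _))
    have h := ih n (dn lam) ((Set.range e)ᶜ : Set P) (red ε f)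
      (fun i => by have := hM i; show lam i - 1 ≤ M; omega)
      (fun i j hij => Nat.sub_le_sub_right (hlam hij) 1)
      (red_HWW hlam ε hf) (red_ColZ ε hC) (fun q => w q.1)
    rw [← h]
    unfold red
    refine Finset.sum_congr rfl (fun s _ => ?_)
    congr 2
    funext p
    obtain ⟨x, rfl⟩ := ε.symm.surjective p
    rcases x with r | q
    · have h1 : ε.symm (Sum.inl r) = e r := by
        simp [ε]
      rw [h1, wd_mem he]
      rw [← h1]
      simp [glue]
    · have h1 : ε.symm (Sum.inr q) = q.1 := by
        simp [ε]
      rw [wd_not]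
      · simp only [glue, Equiv.apply_symm_apply, Sum.elim_inr]
        rw [h1]
      · intro r hr
        apply q.2
        exact ⟨r, hr.trans h1⟩

/-- **(CAP)** -/
theorem cap : CapStmt := by
  intro n lam P _ _ f hlam hf hC w
  exact aux (∑ i, lam i) n lam P f
    (fun i => Finset.single_le_sum (fun j _ => Nat.zero_le _) (Finset.mem_univ i)) hlam hf hC w

end Vale.Agent.P181.FL.H264
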