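import Vale.Agent.P181.FL.Defs

set_option autoImplicit false

/-!
# P181, FL: the row [CAP], the Capelli step

A highest weight vector all of whose antisymmetrisations over a full first column vanish is zero.
-/

open scoped BigOperators

namespace Vale.Agent.P181.FL.H264

open Finset Vale.Agent.P181.FL

/-- The nonzero rows. -/
abbrev Row {n : ℕ} (lam : Fin n → ℕ) : Type := {i : Fin n // 0 < lam i}

section

variable {n : ℕ} {P : Type} [Fintype P] [DecidableEq P] {lam : Fin n → ℕ}

/-- The word `w` with the letter at `e r` replaced by `s r`. -/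
noncomputable def wd (w : P → Fin n) (e : Row lam → P) (s : Equiv.Perm (Row lam)) : P → Fin n :=
  Function.extend e (fun r => (s r).1) w

omit [Fintype P] [DecidableEq P] in
theorem inj_of {w : P → Fin n} {e : Row lam → P} (he : ∀ r, w (e r) = r.1) :
    Function.Injective e := by
  intro r r' h
  have := he r
  rw [h, he r'] at this
  exact Subtype.ext this.symm

omit [Fintype P] [DecidableEq P] in
theorem wd_mem {w : P → Fin n} {e : Row lam → P} (he : Function.Injective e)
    (s : Equiv.Perm (Row lam)) (r : Row lam) : wd w e s (e r) = (s r).1 :=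
  he.extend_apply _ _ _

omit [Fintype P] [DecidableEq P] in
theorem wd_not {w : P → Fin n} {e : Row lam → P} (s : Equiv.Perm (Row lam)) {p : P}
    (hp : ∀ r, e r ≠ p) : wd w e s p = w p := by
  apply Function.extend_apply'
  rintro ⟨r, hr⟩
  exact hp r hr

/-- The highest weight relation for one replaced letter. -/
theorem key {f : (P → Fin n) → ℂ} (hf : HWW lam f) {w : P → Fin n} {e : Row lam → P}
    (he : ∀ r, w (e r) = r.1) {s : Equiv.Perm (Row lam)} {a b : Row lam} (hab : a ≠ b)
    (hsa : s a = a) (hlt : a < s b) :
    ∑ q with w q = a.1, f (wd w (Function.update e a q) (s * Equiv.swap a b)) =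
      - f (wd w e s) := by
  classical
  have hi := inj_of he
  set w2 : P → Fin n := Function.update (wd w e s) (e b) a.1 with hw2
  have h1 := hf.hw a.1 (s b).1 hlt w2
  rw [← Finset.sum_filter] at h1
  have hset : (Finset.univ.filter (fun p => w2 p = a.1)) =
      insert (e b) (Finset.univ.filter (fun p => w p = a.1)) := by
    ext p
    simp only [Finset.mem_filter, Finset.mem_univ, true_and, Finset.mem_insert, hw2]
    by_cases hp : p = e b
    · subst hp
      simp
    · rw [Function.update_of_ne hp]
      by_cases hr : ∃ r, e r = p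
      · obtain ⟨r, rfl⟩ := hr
        rw [wd_mem hi, he r]
        constructor
        · intro h
          right
          have : s r = a := Subtype.ext h
          have h2 : r = a := s.injective (this.trans hsa.symm)
          rw [h2]
        · rintro (h | h)
          · exact absurd h hp
          · have : r = a := Subtype.ext h
            rw [this, hsa]
      · push Not at hr
        rw [wd_not s hr]
        simp [hp]
  have hnot : e b ∉ (Finset.univ.filter (fun p => w p = a.1)) := by
    simp only [Finset.mem_filter, Finset.mem_univ, true_and, he b]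
    intro h
    exact hab (Subtype.ext h.symm)
  rw [hset, Finset.sum_insert hnot] at h1
  have hb : Function.update w2 (e b) (s b).1 = wd w e s := by
    rw [hw2, Function.update_idem]
    conv_rhs => rw [← Function.update_eq_self (e b) (wd w e s)]
    rw [wd_mem hi]
  rw [hb] at h1
  have hq : ∀ q ∈ (Finset.univ.filter (fun p => w p = a.1)),
      f (Function.update w2 q (s b).1) =
        f (wd w (Function.update e a q) (s * Equiv.swap a b)) := by
    intro q hq
    simp only [Finset.mem_filter, Finset.mem_univ, true_and] at hq
    congr 1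
    have he' : ∀ r, w (Function.update e a q r) = r.1 := by
      intro r
      by_cases hr : r = a
      · subst hr
        simpa using hq
      · rw [Function.update_of_ne hr]
        exact he r
    have hi' := inj_of he'
    funext p
    by_cases hpq : p = q
    · subst hpq
      rw [Function.update_self]
      have := wd_mem (w := w) hi' (s * Equiv.swap a b) a
      rw [Function.update_self] at this
      rw [this]
      simp
    · rw [Function.update_of_ne hpq]
      by_cases hr : ∃ r, Function.update e a q r = p
      · obtain ⟨r, hr⟩ := hr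
        have hra : r ≠ a := by
          rintro rfl
          rw [Function.update_self] at hr
          exact hpq hr.symm
        have h2 := wd_mem (w := w) hi' (s * Equiv.swap a b) r
        rw [hr] at h2
        rw [h2]
        rw [Function.update_of_ne hra] at hr
        subst hr
        by_cases hrb : r = b
        · subst hrb
          rw [hw2, Function.update_self]
          simp [hsa]
        · rw [hw2, Function.update_of_ne (fun h => hrb (hi h)), wd_mem hi]
          simp [Equiv.swap_apply_of_ne_of_ne hra hrb]
      · push Not at hr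
        rw [wd_not _ hr]
        have hpb : p ≠ e b := by
          have := hr b
          rw [Function.update_of_ne hab.symm] at this
          exact this.symm
        rw [hw2, Function.update_of_ne hpb]
        by_cases hpa : p = e a
        · subst hpa
          rw [wd_mem hi, hsa, he a]
        · apply wd_not
          intro r hr'
          by_cases hra : r = a
          · subst hra
            exact hpa hr'.symm
          · have := hr r
            rw [Function.update_of_ne hra] at this
            exact this hr'
  rw [Finset.sum_congr rfl hq] at h1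
  linear_combination h1

omit [DecidableEq P] in
/-- Exchange of the marked position of one row. -/
theorem sum_upd (w : P → Fin n) (a : Row lam) (F : (Row lam → P) → ℂ) :
    ∑ e : Row lam → P with (∀ r, w (e r) = r.1), ∑ q with w q = a.1, F (Function.update e a q) =
      (#{q | w q = a.1} : ℂ) * ∑ e : Row lam → P with (∀ r, w (e r) = r.1), F e := by
  classical
  rw [← Finset.sum_product']
  have h2 : (#{q | w q = a.1} : ℂ) * ∑ e : Row lam → P with (∀ r, w (e r) = r.1), F e =
      ∑ e : Row lam → P with (∀ r, w (e r) = r.1), ∑ q with w q = a.1, F e := by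
    simp only [Finset.sum_const, nsmul_eq_mul, Finset.mul_sum]
  rw [h2, ← Finset.sum_product']
  refine Finset.sum_nbij' (fun x => (Function.update x.1 a x.2, x.1 a))
    (fun x => (Function.update x.1 a x.2, x.1 a)) ?_ ?_ ?_ ?_ ?_
  · rintro ⟨e, q⟩ hx
    simp only [Finset.mem_product, Finset.mem_filter, Finset.mem_univ, true_and] at hx ⊢
    refine ⟨fun r => ?_, hx.1 a⟩
    by_cases hr : r = a
    · subst hr
      simpa using hx.2
    · rw [Function.update_of_ne hr]
      exact hx.1 r
  · rintro ⟨e, q⟩ hx
    simp only [Finset.mem_product, Finset.mem_filter, Finset.mem_univ, true_and] at hx ⊢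
    refine ⟨fun r => ?_, hx.1 a⟩
    by_cases hr : r = a
    · subst hr
      simpa using hx.2
    · rw [Function.update_of_ne hr]
      exact hx.1 r
  · rintro ⟨e, q⟩ hx
    simp
  · rintro ⟨e, q⟩ hx
    simp
  · rintro ⟨e, q⟩ hx
    simp

/-- Permutations which fix everything outside `insert a J`. -/
theorem sum_perm {R : Type} [Fintype R] [DecidableEq R] (J : Finset R) (a : R) (ha : a ∉ J)
    (H : Equiv.Perm R → ℂ) :
    ∑ s : Equiv.Perm R with (∀ r, r ∉ insert a J → s r = r), H s =
      ∑ s : Equiv.Perm R with (∀ r, r ∉ J → s r = r),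
        ∑ b ∈ insert a J, H (s * Equiv.swap a b) := by
  classical
  rw [← Finset.sum_product']
  symm
  refine Finset.sum_nbij' (fun x => x.1 * Equiv.swap a x.2)
    (fun s => (s * Equiv.swap a (s⁻¹ a), s⁻¹ a)) ?_ ?_ ?_ ?_ ?_
  · rintro ⟨s, b⟩ hx
    simp only [Finset.mem_product, Finset.mem_filter, Finset.mem_univ, true_and] at hx ⊢
    intro r hr
    have h1 : r ≠ a := fun h => hr (h ▸ Finset.mem_insert_self _ _)
    have h2 : r ≠ b := fun h => hr (h ▸ hx.2)
    rw [Equiv.Perm.mul_apply, Equiv.swap_apply_of_ne_of_ne h1 h2]
    exact hx.1 r (fun h => hr (Finset.mem_insert_of_mem h))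
  · intro s hs
    simp only [Finset.mem_product, Finset.mem_filter, Finset.mem_univ, true_and] at hs ⊢
    constructor
    · intro r hr
      by_cases hra : r = a
      · subst hra
        simp
      · have h1 : r ∉ insert a J := by simp [hra, hr]
        have h2 := hs r h1
        have h3 : r ≠ s⁻¹ a := by
          intro h
          have h4 : s r = a := by rw [h]; simp
          exact hra (h2.symm.trans h4)
        rw [Equiv.Perm.mul_apply, Equiv.swap_apply_of_ne_of_ne hra h3, h2]
    · by_contra hc
      have h1 := hs _ hc
      have h2 : s (s⁻¹ a) = a := by simp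
      rw [h2] at h1
      exact hc (h1 ▸ Finset.mem_insert_self _ _)
  · rintro ⟨s, b⟩ hx
    simp only [Finset.mem_product, Finset.mem_filter, Finset.mem_univ, true_and] at hx
    have hsa : s a = a := hx.1 a ha
    have hsa' : s⁻¹ a = a := by
      rw [Equiv.Perm.inv_eq_iff_eq, hsa]
    have h1 : (s * Equiv.swap a b)⁻¹ a = b := by
      rw [mul_inv_rev, Equiv.Perm.mul_apply, hsa', Equiv.swap_inv, Equiv.swap_apply_left]
    simp only [h1]
    rw [mul_assoc, Equiv.swap_mul_self, mul_one]
  · intro s hs
    simp only [mul_assoc, Equiv.swap_mul_self, mul_one]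
  · rintro ⟨s, b⟩ hx
    rfl

/-- The partial Capelli sums. -/
noncomputable def DD (f : (P → Fin n) → ℂ) (w : P → Fin n) (J : Finset (Row lam)) : ℂ :=
  ∑ e : Row lam → P with (∀ r, w (e r) = r.1),
    ∑ s : Equiv.Perm (Row lam) with (∀ r, r ∉ J → s r = r),
      ((Equiv.Perm.sign s : ℤ) : ℂ) * f (wd w e s)

theorem DD_insert {f : (P → Fin n) → ℂ} (hf : HWW lam f) {w : P → Fin n} (J : Finset (Row lam))
    (a : Row lam) (ha : ∀ x ∈ J, a < x) :
    (#{q | w q = a.1} : ℂ) * DD f w (insert a J) =
      ((#{q | w q = a.1} : ℂ) + (#J : ℂ)) * DD f w J := by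
  classical
  have haJ : a ∉ J := fun h => lt_irrefl _ (ha a h)
  set c : ℂ := (#{q | w q = a.1} : ℂ) with hc
  have h1 : DD f w (insert a J) = DD f w J +
      ∑ e : Row lam → P with (∀ r, w (e r) = r.1),
      ∑ s : Equiv.Perm (Row lam) with (∀ r, r ∉ J → s r = r),
        ∑ b ∈ J, (-((Equiv.Perm.sign s : ℤ) : ℂ) * f (wd w e (s * Equiv.swap a b))) := by
    unfold DD
    rw [← Finset.sum_add_distrib]
    refine Finset.sum_congr rfl (fun e he => ?_)
    rw [sum_perm J a haJ, ← Finset.sum_add_distrib]
    refine Finset.sum_congr rfl (fun s hs => ?_)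
    rw [Finset.sum_insert haJ, Equiv.swap_self]
    congr 1
    refine Finset.sum_congr rfl (fun b hb => ?_)
    have hab : a ≠ b := fun h => haJ (h ▸ hb)
    rw [Equiv.Perm.sign_mul, Equiv.Perm.sign_swap hab]
    simp
  have h2 : ∀ s : Equiv.Perm (Row lam), (∀ r, r ∉ J → s r = r) → ∀ b ∈ J,
      c * ∑ e : Row lam → P with (∀ r, w (e r) = r.1), f (wd w e (s * Equiv.swap a b)) =
        - ∑ e : Row lam → P with (∀ r, w (e r) = r.1), f (wd w e s) := by
    intro s hs b hb
    have hab : a ≠ b := fun h => haJ (h ▸ hb)
    rw [hc, ← sum_upd w a (fun e => f (wd w e (s * Equiv.swap a b))), ← Finset.sum_neg_distrib]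
    refine Finset.sum_congr rfl (fun e he => ?_)
    simp only [Finset.mem_filter, Finset.mem_univ, true_and] at he
    have hsb : s b ∈ J := by
      by_contra hn
      have := hs _ hn
      have h3 : s b = b := s.injective this
      rw [h3] at hn
      exact hn hb
    exact key hf he hab (hs a haJ) (ha _ hsb)
  rw [h1, mul_add, add_mul]
  congr 1
  rw [Finset.sum_comm]
  simp only [DD]
  rw [Finset.sum_comm (s := Finset.univ.filter (fun e : Row lam → P => ∀ r, w (e r) = r.1)),
    Finset.mul_sum, Finset.mul_sum]
  refine Finset.sum_congr rfl (fun s hs => ?_)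
  simp only [Finset.mem_filter, Finset.mem_univ, true_and] at hs
  rw [Finset.sum_comm, Finset.mul_sum]
  have h3 : ∀ b ∈ J, c * ∑ e : Row lam → P with (∀ r, w (e r) = r.1),
      (-((Equiv.Perm.sign s : ℤ) : ℂ) * f (wd w e (s * Equiv.swap a b))) =
      ∑ e : Row lam → P with (∀ r, w (e r) = r.1),
        ((Equiv.Perm.sign s : ℤ) : ℂ) * f (wd w e s) := by
    intro b hb
    rw [← Finset.mul_sum, ← Finset.mul_sum]
    have := h2 s hs b hb
    linear_combination (-((Equiv.Perm.sign s : ℤ) : ℂ)) * this
  rw [Finset.sum_congr rfl h3, Finset.sum_const, nsmul_eq_mul]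

theorem DD_empty (f : (P → Fin n) → ℂ) (w : P → Fin n) :
    DD (lam := lam) f w ∅ =
      (#{e : Row lam → P | ∀ r, w (e r) = r.1} : ℂ) * f w := by
  classical
  unfold DD
  rw [← nsmul_eq_mul, ← Finset.sum_const]
  refine Finset.sum_congr rfl (fun e he => ?_)
  simp only [Finset.mem_filter, Finset.mem_univ, true_and] at he
  have h1 : (Finset.univ.filter (fun s : Equiv.Perm (Row lam) => ∀ r, r ∉ (∅ : Finset (Row lam)) →
      s r = r)) = {1} := by
    ext s
    simp only [Finset.mem_filter, Finset.mem_univ, true_and, Finset.mem_singleton,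
      Finset.notMem_empty, not_false_eq_true, forall_true_left]
    exact ⟨fun h => Equiv.ext h, fun h r => by rw [h]; rfl⟩
  rw [h1, Finset.sum_singleton]
  simp only [Equiv.Perm.sign_one, Units.val_one, Int.cast_one, one_mul]
  congr 1
  funext p
  by_cases hr : ∃ r, e r = p
  · obtain ⟨r, rfl⟩ := hr
    rw [wd_mem (inj_of he), he r]
    rfl
  · push Not at hr
    exact wd_not _ hr

/-- A highest weight vector all of whose antisymmetrisations over a full first column vanish is
zero. -/
theorem zero_of {f : (P → Fin n) → ℂ} (hf : HWW lam f)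
    (hA : ∀ (e : Row lam → P), Function.Injective e → ∀ w : P → Fin n,
      ∑ s : Equiv.Perm (Row lam), ((Equiv.Perm.sign s : ℤ) : ℂ) * f (wd w e s) = 0)
    (w : P → Fin n) : f w = 0 := by
  classical
  by_contra hne
  have hwt := hf.wt w hne
  have hJ : ∀ J : Finset (Row lam), ∃ c : ℂ, c ≠ 0 ∧ DD f w J = c * f w := by
    intro J
    induction J using Finset.induction_on_min with
    | empty =>
      refine ⟨(#{e : Row lam → P | ∀ r, w (e r) = r.1} : ℂ), ?_, DD_empty f w⟩
      rw [Nat.cast_ne_zero]
      apply Finset.card_ne_zero_of_mem (a := fun r => Classical.choose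
        (Finset.card_pos.mp (by rw [hwt r.1]; exact r.2 : 0 < #{p | w p = r.1})))
      simp only [Finset.mem_filter, Finset.mem_univ, true_and]
      intro r
      have := Classical.choose_spec
        (Finset.card_pos.mp (by rw [hwt r.1]; exact r.2 : 0 < #{p | w p = r.1}))
      simpa using this
    | insert a J ha ih =>
      obtain ⟨c, hc, hJ⟩ := ih
      have h1 := DD_insert hf (w := w) J a ha
      have hpos : (lam a.1 : ℂ) ≠ 0 := by
        rw [Nat.cast_ne_zero]
        exact a.2.ne'
      rw [hwt a.1, hJ] at h1
      refine ⟨((lam a.1 : ℂ) + (#J : ℂ)) * c / (lam a.1 : ℂ), ?_, ?_⟩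
      · apply div_ne_zero _ hpos
        apply mul_ne_zero _ hc
        have : ((lam a.1 + #J : ℕ) : ℂ) ≠ 0 := by
          rw [Nat.cast_ne_zero]
          have := a.2
          omega
        push_cast at this
        exact this
      · field_simp
        linear_combination h1
  obtain ⟨c, hc, h⟩ := hJ Finset.univ
  have h0 : DD f w (Finset.univ : Finset (Row lam)) = 0 := by
    unfold DD
    apply Finset.sum_eq_zero
    intro e he
    simp only [Finset.mem_filter, Finset.mem_univ, true_and] at he
    have := hA e (inj_of he) w
    rw [← this]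
    refine Finset.sum_congr ?_ (fun s _ => rfl)
    ext s
    simp
  rw [h0] at h
  rcases mul_eq_zero.mp h.symm with h | h
  · exact hc h
  · exact hne h

end

end Vale.Agent.P181.FL.H264
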